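import Vale.Agent.P207.Q.ConstSym

/-!
# P207, dimension two: the Gauss curvature in coordinates and its conformal change
-/

open scoped Manifold ContDiff ENNReal Topology
open Set Filter

set_option maxSynthPendingDepth 3
set_option linter.unusedSimpArgs false
set_option linter.unusedSectionVars false

noncomputable section

namespace Vale.Agent.P207Z.Two

open Vale.Agent.P255 Vale.Agent.P207 Vale.Agent.P207.D1

variable {E : Type} [NormedAddCommGroup E] [NormedSpace ℝ E] [FiniteDimensional ℝ E]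
variable {G : E → E →L[ℝ] E →L[ℝ] ℝ} {U : Set E}

theorem d_chris (h : IsMetricOn G U) {u : E} (hu : u ∈ U) (x y z w : E) :
    G u (fderiv ℝ (chrisB G) u x y z) w =
      (fderiv ℝ (fderiv ℝ G) u x y z w + fderiv ℝ (fderiv ℝ G) u x z y w
        - fderiv ℝ (fderiv ℝ G) u x w y z) / 2 - fderiv ℝ G u x (chrisB G u y z) w := by
  have k := fun (q : E) => (hasFDerivAt_const (𝕜 := ℝ) q u)
  have hG := (h.differentiableAt hu).hasFDerivAt
  have hB := (h.differentiableAt_chrisB hu).hasFDerivAt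
  have hD : HasFDerivAt (fderiv ℝ G) (fderiv ℝ (fderiv ℝ G) u) u :=
    ((h.contDiffAt_fderiv hu).differentiableAt (by simp)).hasFDerivAt
  have l1 := (hG.clm_apply ((hB.clm_apply (k y)).clm_apply (k z))).clm_apply (k w)
  have r : ∀ a b c : E, HasFDerivAt (fun p => fderiv ℝ G p a b c) _ u := fun a b c =>
    ((hD.clm_apply (k a)).clm_apply (k b)).clm_apply (k c)
  have r1 := (((r y z w).fun_add (r z y w)).fun_sub (r w y z)).mul_const (1 / 2 : ℝ)
  have e1 : (fun p => G p (chrisB G p y z) w) =ᶠ[𝓝 u] fun p =>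
      (fderiv ℝ G p y z w + fderiv ℝ G p z y w - fderiv ℝ G p w y z) * (1 / 2) := by
    filter_upwards [h.mem_nhds hu] with p hp
    rw [chrisB_apply, h.chris_spec hp]
    ring
  have e2 := DFunLike.congr_fun ((l1.congr_of_eventuallyEq e1.symm).unique r1) x
  simp only [add_apply, sub_apply, smul_apply, ContinuousLinearMap.comp_apply,
    ContinuousLinearMap.flip_apply, ContinuousLinearMap.comp_zero, zero_add, smul_eq_mul,
    map_zero, zero_apply] at e2
  linarith

/-- the numerator of the sectional curvature -/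
theorem num_eq (h : IsMetricOn G U) {u : E} (hu : u ∈ U) (x y : E) :
    G u (curvT G u x y y) x = fderiv ℝ (fderiv ℝ G) u x y y x - fderiv ℝ (fderiv ℝ G) u x x y y / 2
      - (fderiv ℝ (fderiv ℝ G) u y x y x + fderiv ℝ (fderiv ℝ G) u y y x x
        - fderiv ℝ (fderiv ℝ G) u y x x y) / 2
      - G u (chris G u y y) (chris G u x x) + G u (chris G u x y) (chris G u y x) := by
  rw [curvT_apply h hu, h.curv_eq hu]
  simp only [map_add, map_sub, add_apply, sub_apply]
  rw [d_chris h hu, d_chris h hu, h.chris_compat hu x, h.chris_compat hu y]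
  simp only [chrisB_apply]
  ring

/-- the conformal metric -/
def cG (G : E → E →L[ℝ] E →L[ℝ] ℝ) (f : E → ℝ) (p : E) : E →L[ℝ] E →L[ℝ] ℝ :=
  Real.exp (2 * f p) • G p

omit [FiniteDimensional ℝ E] in
theorem cG_apply (f : E → ℝ) (p v w : E) : cG G f p v w = Real.exp (2 * f p) * G p v w := rfl

variable {f : E → ℝ}

omit [FiniteDimensional ℝ E] in
theorem isMetricOn_cG (h : IsMetricOn G U) (hf : ContDiffOn ℝ ∞ f U) : IsMetricOn (cG G f) U where
  isOpen := h.isOpen
  smooth := ((contDiffOn_const.mul hf).exp).smul h.smooth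
  symm u hu v w := by rw [cG_apply, cG_apply, h.symm u hu]
  pos u hu v hv := by
    rw [cG_apply]
    exact mul_pos (Real.exp_pos _) (h.pos u hu v hv)

omit [FiniteDimensional ℝ E] in
theorem fderiv_cG (h : IsMetricOn G U) (hf : ContDiffOn ℝ ∞ f U) {u : E} (hu : u ∈ U)
    (a v w : E) : fderiv ℝ (cG G f) u a v w =
      Real.exp (2 * f u) * (2 * fderiv ℝ f u a * G u v w + fderiv ℝ G u a v w) := by
  have h1 : HasFDerivAt f (fderiv ℝ f u) u :=
    ((hf.contDiffAt (h.mem_nhds hu)).differentiableAt (by simp)).hasFDerivAt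
  have h2 := ((h1.const_mul 2).exp).smul (h.differentiableAt hu).hasFDerivAt
  have h3 : fderiv ℝ (cG G f) u = _ := h2.fderiv
  rw [h3]
  simp only [add_apply, smul_apply, ContinuousLinearMap.smulRight_apply, smul_eq_mul]
  ring

omit [FiniteDimensional ℝ E] in
theorem fderiv2_cG (h : IsMetricOn G U) (hf : ContDiffOn ℝ ∞ f U) {u : E} (hu : u ∈ U)
    (a b v w : E) : fderiv ℝ (fderiv ℝ (cG G f)) u a b v w =
      Real.exp (2 * f u) * ((2 * fderiv ℝ (fderiv ℝ f) u a b
        + 4 * fderiv ℝ f u a * fderiv ℝ f u b) * G u v w + 2 * fderiv ℝ f u b * fderiv ℝ G u a v w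
        + 2 * fderiv ℝ f u a * fderiv ℝ G u b v w + fderiv ℝ (fderiv ℝ G) u a b v w) := by
  have k := fun (q : E) => (hasFDerivAt_const (𝕜 := ℝ) q u)
  have hc := isMetricOn_cG h hf
  have hfu := hf.contDiffAt (h.mem_nhds hu)
  have h1 : HasFDerivAt f (fderiv ℝ f u) u := (hfu.differentiableAt (by simp)).hasFDerivAt
  have h2 : HasFDerivAt (fderiv ℝ f) (fderiv ℝ (fderiv ℝ f) u) u :=
    ((hfu.fderiv_right (m := ∞) (by simp)).differentiableAt (by simp)).hasFDerivAt
  have hG := (h.differentiableAt hu).hasFDerivAt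
  have hD : HasFDerivAt (fderiv ℝ G) (fderiv ℝ (fderiv ℝ G) u) u :=
    ((h.contDiffAt_fderiv hu).differentiableAt (by simp)).hasFDerivAt
  have hDc : HasFDerivAt (fderiv ℝ (cG G f)) (fderiv ℝ (fderiv ℝ (cG G f)) u) u :=
    ((hc.contDiffAt_fderiv hu).differentiableAt (by simp)).hasFDerivAt
  have l1 := ((hDc.clm_apply (k b)).clm_apply (k v)).clm_apply (k w)
  have r1 := ((h1.const_mul 2).exp).fun_mul
    ((((h2.clm_apply (k b)).const_mul 2).fun_mul ((hG.clm_apply (k v)).clm_apply (k w))).fun_add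
      (((hD.clm_apply (k b)).clm_apply (k v)).clm_apply (k w)))
  have e1 : (fun p => fderiv ℝ (cG G f) p b v w) =ᶠ[𝓝 u] fun p =>
      Real.exp (2 * f p) * (2 * fderiv ℝ f p b * G p v w + fderiv ℝ G p b v w) := by
    filter_upwards [h.mem_nhds hu] with p hp
    exact fderiv_cG h hf hp b v w
  have e2 := DFunLike.congr_fun ((l1.congr_of_eventuallyEq e1.symm).unique r1) a
  simp only [add_apply, smul_apply, ContinuousLinearMap.comp_apply,
    ContinuousLinearMap.flip_apply, ContinuousLinearMap.comp_zero, zero_add, smul_eq_mul,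
    map_zero, zero_apply] at e2
  rw [e2]
  ring

theorem chris_cG (h : IsMetricOn G U) (hf : ContDiffOn ℝ ∞ f U) {u : E} (hu : u ∈ U) {N : E}
    (hN : ∀ z, G u N z = fderiv ℝ f u z) (v w : E) :
    chris (cG G f) u v w =
      chris G u v w + fderiv ℝ f u v • w + fderiv ℝ f u w • v - G u v w • N := by
  have hc := isMetricOn_cG h hf
  apply hc.ext_of hu
  intro z
  rw [hc.chris_spec hu, fderiv_cG h hf hu, fderiv_cG h hf hu, fderiv_cG h hf hu, cG_apply]
  simp only [map_add, map_sub, map_smul, add_apply, sub_apply, smul_apply, smul_eq_mul, hN]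
  rw [h.chris_spec hu]
  ring

/-- conformal change of the numerator of the sectional curvature -/
theorem num_cG (h : IsMetricOn G U) (hf : ContDiffOn ℝ ∞ f U) {u : E} (hu : u ∈ U) {N : E}
    (hN : ∀ z, G u N z = fderiv ℝ f u z) (x y : E) :
    cG G f u (curvT (cG G f) u x y y) x = Real.exp (2 * f u) * (G u (curvT G u x y y) x
      - ((fderiv ℝ (fderiv ℝ f) u x x - fderiv ℝ f u (chris G u x x)) * G u y y
        + (fderiv ℝ (fderiv ℝ f) u y y - fderiv ℝ f u (chris G u y y)) * G u x x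
        - 2 * (fderiv ℝ (fderiv ℝ f) u x y - fderiv ℝ f u (chris G u x y)) * G u x y)
      + (fderiv ℝ f u x ^ 2 * G u y y + fderiv ℝ f u y ^ 2 * G u x x
        - 2 * fderiv ℝ f u x * fderiv ℝ f u y * G u x y
        - G u N N * (G u x x * G u y y - G u x y ^ 2))) := by
  have hc := isMetricOn_cG h hf
  have hs := h.symm u hu
  have hN' : ∀ z, G u z N = fderiv ℝ f u z := fun z => by rw [hs, hN]
  rw [num_eq hc hu, num_eq h hu]
  simp only [fderiv2_cG h hf hu, chris_cG h hf hu hN, cG_apply, h.chris_compat hu,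
    h.chris_symm hu y x]
  simp only [map_add, map_sub, map_smul, add_apply, sub_apply, smul_apply, smul_eq_mul]
  simp only [hs y x, hs x (chris G u x x), hs y (chris G u x x), hs x (chris G u x y),
    hs y (chris G u x y), hs x (chris G u y y), hs y (chris G u y y), hN x, hN y, hN' x, hN' y,
    hN (chris G u x x), hN (chris G u x y), hN (chris G u y y), hN' (chris G u x x),
    hN' (chris G u x y), hN' (chris G u y y)]
  ring

omit [FiniteDimensional ℝ E] in
theorem gram_pos (h : IsMetricOn G U) {u : E} (hu : u ∈ U) {v w : E}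
    (hvw : LinearIndependent ℝ ![v, w]) : 0 < G u v v * G u w w - G u v w ^ 2 := by
  rw [LinearIndependent.pair_iff] at hvw
  have hv : v ≠ 0 := by
    intro h0
    have := (hvw 1 0 (by simp [h0])).1
    simp at this
  have h1 := h.pos u hu v hv
  have h2 : (-G u v w) • v + G u v v • w ≠ 0 := fun h0 => h1.ne' (hvw _ _ h0).2
  have h3 := h.pos u hu _ h2
  simp only [map_add, map_smul, add_apply, smul_apply, smul_eq_mul, h.symm u hu w v] at h3
  have h4 : 0 < G u v v * (G u v v * G u w w - G u v w ^ 2) := by nlinarith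
  exact (mul_pos_iff_of_pos_left h1).1 h4

section two

variable (e0 e1 : E)

/-- Gram determinant of the basis -/
def gram (G : E → E →L[ℝ] E →L[ℝ] ℝ) (u : E) : ℝ := G u e0 e0 * G u e1 e1 - G u e0 e1 ^ 2

/-- Gauss curvature -/
def Kc (G : E → E →L[ℝ] E →L[ℝ] ℝ) (u : E) : ℝ := G u (curvT G u e0 e1 e1) e0 / gram e0 e1 G u

variable {e0 e1}

theorem sec_eq (hi : LinearIndependent ℝ ![e0, e1]) (hsp : ∀ v : E, ∃ a b : ℝ, v = a • e0 + b • e1)
    (h : IsMetricOn G U) {u : E} (hu : u ∈ U) (v w : E) :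
    G u (curvT G u v w w) v = Kc e0 e1 G u * (G u v v * G u w w - G u v w ^ 2) := by
  have hg : gram e0 e1 G u ≠ 0 := (gram_pos h hu hi).ne'
  obtain ⟨a, b, rfl⟩ := hsp v
  obtain ⟨c, d, rfl⟩ := hsp w
  have s1 : ∀ x y, curvT G u x x y = 0 := by
    intro x y
    have e := curvT_anti h hu x x y
    have e2 : (2 : ℝ) • curvT G u x x y = 0 := by
      rw [two_smul]
      nth_rewrite 1 [e]
      simp
    exact (smul_eq_zero.1 e2).resolve_left (by norm_num)
  have s2 : ∀ x y z, G u (curvT G u x y z) z = 0 := by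
    intro x y z
    have := curvT_skew h hu x y z z
    linarith
  have s3 : ∀ z, curvT G u e1 e0 z = -curvT G u e0 e1 z := fun z => curvT_anti h hu e1 e0 z
  have s4 : G u (curvT G u e0 e1 e0) e1 = -G u (curvT G u e0 e1 e1) e0 := curvT_skew h hu _ _ _ _
  have s5 : G u (curvT G u e0 e1 e1) e0 = Kc e0 e1 G u * gram e0 e1 G u := by
    unfold Kc
    rw [div_mul_cancel₀ _ hg]
  simp only [map_add, map_smul, add_apply, smul_apply, smul_eq_mul, s1, s3, map_neg, neg_apply,
    s2, s4, s5, map_zero, zero_apply, h.symm u hu e1 e0]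
  unfold gram
  ring

theorem Kc_trans (hi : LinearIndependent ℝ ![e0, e1])
    (hsp : ∀ v : E, ∃ a b : ℝ, v = a • e0 + b • e1) (h : IsMetricOn G U)
    {G₂ : E → E →L[ℝ] E →L[ℝ] ℝ} {U₂ : Set E}
    (h₂ : IsMetricOn G₂ U₂) {τ : E → E} {u : E} (hu : u ∈ U) (hu₂ : ∀ᶠ x in 𝓝 u, τ x ∈ U₂)
    (hτ : ∀ᶠ x in 𝓝 u, ContDiffAt ℝ ∞ τ x)
    (hiso : ∀ᶠ x in 𝓝 u, ∀ v w, G₂ (τ x) (fderiv ℝ τ x v) (fderiv ℝ τ x w) = G x v w) :
    Kc e0 e1 G₂ (τ u) = Kc e0 e1 G u := by
  have hg : gram e0 e1 G u ≠ 0 := (gram_pos h hu hi).ne'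
  have h1 := hiso.self_of_nhds
  have h2 := sec_eq hi hsp h₂ hu₂.self_of_nhds (fderiv ℝ τ u e0) (fderiv ℝ τ u e1)
  rw [← curvT_trans h h₂ hu hu₂ hτ hiso, h1, h1, h1, h1] at h2
  unfold Kc at h2 ⊢
  rw [h2]
  exact (mul_div_cancel_right₀ _ hg).symm

theorem contDiffAt_gram (h : IsMetricOn G U) {u : E} (hu : u ∈ U) :
    ContDiffAt ℝ ∞ (gram e0 e1 G) u := by
  have k : ∀ v w : E, ContDiffAt ℝ ∞ (fun p => G p v w) u := fun v w =>
    ((h.contDiffAt hu).clm_apply contDiffAt_const).clm_apply contDiffAt_const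
  exact ((k e0 e0).mul (k e1 e1)).sub ((k e0 e1).pow 2)

theorem contDiffAt_Kc (hi : LinearIndependent ℝ ![e0, e1]) (h : IsMetricOn G U) {u : E}
    (hu : u ∈ U) : ContDiffAt ℝ ∞ (Kc e0 e1 G) u := by
  have h1 : ContDiffAt ℝ ∞ (fun p => G p (curvT G p e0 e1 e1) e0) u :=
    ((h.contDiffAt hu).clm_apply ((((contDiffAt_curvT h hu).clm_apply contDiffAt_const).clm_apply
      contDiffAt_const).clm_apply contDiffAt_const)).clm_apply contDiffAt_const
  exact h1.div (contDiffAt_gram h hu) (gram_pos h hu hi).ne'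

variable (e0 e1)

/-- evaluation of bilinear forms -/
def ev2 (v w : E) : (E →L[ℝ] E →L[ℝ] ℝ) →L[ℝ] ℝ :=
  (ContinuousLinearMap.apply ℝ ℝ w).comp (ContinuousLinearMap.apply ℝ (E →L[ℝ] ℝ) v)

/-- second order part of the Laplacian -/
def aL (G : E → E →L[ℝ] E →L[ℝ] ℝ) (u : E) : (E →L[ℝ] E →L[ℝ] ℝ) →L[ℝ] ℝ :=
  (G u e1 e1 / gram e0 e1 G u) • ev2 e0 e0 + (G u e0 e0 / gram e0 e1 G u) • ev2 e1 e1
    + (-2 * G u e0 e1 / gram e0 e1 G u) • ev2 e0 e1

/-- first order part of the Laplacian -/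
def bL (G : E → E →L[ℝ] E →L[ℝ] ℝ) (u : E) : (E →L[ℝ] ℝ) →L[ℝ] ℝ :=
  ContinuousLinearMap.apply ℝ ℝ ((-G u e1 e1 / gram e0 e1 G u) • chris G u e0 e0
    + (-G u e0 e0 / gram e0 e1 G u) • chris G u e1 e1
    + (2 * G u e0 e1 / gram e0 e1 G u) • chris G u e0 e1)

variable {e0 e1}

omit [FiniteDimensional ℝ E] in
theorem aL_apply (u : E) (B : E →L[ℝ] E →L[ℝ] ℝ) : aL e0 e1 G u B =
    (G u e1 e1 * B e0 e0 + G u e0 e0 * B e1 e1 - 2 * G u e0 e1 * B e0 e1) / gram e0 e1 G u := by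
  simp only [aL, ev2, add_apply, smul_apply, ContinuousLinearMap.comp_apply,
    ContinuousLinearMap.apply_apply, smul_eq_mul]
  ring

omit [FiniteDimensional ℝ E] in
theorem bL_apply (u : E) (ξ : E →L[ℝ] ℝ) : bL e0 e1 G u ξ =
    -(G u e1 e1 * ξ (chris G u e0 e0) + G u e0 e0 * ξ (chris G u e1 e1)
      - 2 * G u e0 e1 * ξ (chris G u e0 e1)) / gram e0 e1 G u := by
  unfold bL
  rw [ContinuousLinearMap.apply_apply]
  simp only [map_add, map_smul, smul_eq_mul]
  ring

theorem contDiffOn_aL (hi : LinearIndependent ℝ ![e0, e1]) (h : IsMetricOn G U) :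
    ContDiffOn ℝ ∞ (aL e0 e1 G) U := by
  intro u hu
  have k : ∀ v w : E, ContDiffAt ℝ ∞ (fun p => G p v w) u := fun v w =>
    ((h.contDiffAt hu).clm_apply contDiffAt_const).clm_apply contDiffAt_const
  have hg := contDiffAt_gram (e0 := e0) (e1 := e1) h hu
  have hg0 : gram e0 e1 G u ≠ 0 := (gram_pos h hu hi).ne'
  exact (((((k e1 e1).div hg hg0).smul contDiffAt_const).add
    (((k e0 e0).div hg hg0).smul contDiffAt_const)).add
    (((contDiffAt_const.mul (k e0 e1)).div hg hg0).smul contDiffAt_const)).contDiffWithinAt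

theorem contDiffOn_bL (hi : LinearIndependent ℝ ![e0, e1]) (h : IsMetricOn G U) :
    ContDiffOn ℝ ∞ (bL e0 e1 G) U := by
  intro u hu
  have k : ∀ v w : E, ContDiffAt ℝ ∞ (fun p => G p v w) u := fun v w =>
    ((h.contDiffAt hu).clm_apply contDiffAt_const).clm_apply contDiffAt_const
  have hg := contDiffAt_gram (e0 := e0) (e1 := e1) h hu
  have hg0 : gram e0 e1 G u ≠ 0 := (gram_pos h hu hi).ne'
  have h1 := ((((k e1 e1).neg.div hg hg0).smul (h.contDiffAt_chris hu e0 e0)).add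
    (((k e0 e0).neg.div hg hg0).smul (h.contDiffAt_chris hu e1 e1))).add
    ((((contDiffAt_const (c := (2 : ℝ))).mul (k e0 e1)).div hg hg0).smul
      (h.contDiffAt_chris hu e0 e1))
  exact ((ContinuousLinearMap.apply ℝ ℝ :
    E →L[ℝ] (E →L[ℝ] ℝ) →L[ℝ] ℝ).contDiff.contDiffAt.comp u h1).contDiffWithinAt

omit [FiniteDimensional ℝ E] in
theorem aL_pos (hi : LinearIndependent ℝ ![e0, e1]) (hsp : ∀ v : E, ∃ a b : ℝ, v = a • e0 + b • e1)
    (h : IsMetricOn G U) {u : E} (hu : u ∈ U) (ξ : E →L[ℝ] ℝ) (hξ : ξ ≠ 0) :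
    0 < aL e0 e1 G u (ξ.smulRight ξ) := by
  rw [aL_apply]
  refine div_pos ?_ (gram_pos h hu hi)
  have h1 : ξ e1 • e0 + (-ξ e0) • e1 ≠ 0 := by
    intro h0
    obtain ⟨h2, h3⟩ := LinearIndependent.pair_iff.1 hi _ _ h0
    apply hξ
    ext v
    obtain ⟨a, b, rfl⟩ := hsp v
    have h4 : ξ e0 = 0 := by linarith
    simp [h2, h4]
  have h2 := h.pos u hu _ h1
  simp only [map_add, map_smul, add_apply, smul_apply, smul_eq_mul, h.symm u hu e1 e0] at h2
  simp only [ContinuousLinearMap.smulRight_apply, smul_apply, smul_eq_mul]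
  nlinarith

/-- conformal change of the Gauss curvature -/
theorem Kc_cG (hi : LinearIndependent ℝ ![e0, e1]) (hsp : ∀ v : E, ∃ a b : ℝ, v = a • e0 + b • e1)
    (h : IsMetricOn G U) (hf : ContDiffOn ℝ ∞ f U) {u : E} (hu : u ∈ U) :
    Kc e0 e1 G u - Real.exp (2 * f u) * Kc e0 e1 (cG G f) u =
      aL e0 e1 G u (fderiv ℝ (fderiv ℝ f) u) + bL e0 e1 G u (fderiv ℝ f u) := by
  obtain ⟨N, hN⟩ : ∃ N : E, ∀ z, G u N z = fderiv ℝ f u z :=
    ⟨(G u).inverse (fderiv ℝ f u), fun z => by rw [(h.isInvertible hu).self_apply_inverse]⟩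
  have hg : gram e0 e1 G u ≠ 0 := (gram_pos h hu hi).ne'
  have h1 := num_cG h hf hu hN e0 e1
  have h2 : fderiv ℝ f u e0 ^ 2 * G u e1 e1 + fderiv ℝ f u e1 ^ 2 * G u e0 e0
      - 2 * fderiv ℝ f u e0 * fderiv ℝ f u e1 * G u e0 e1
      - G u N N * (G u e0 e0 * G u e1 e1 - G u e0 e1 ^ 2) = 0 := by
    rw [← hN e0, ← hN e1]
    obtain ⟨a, b, rfl⟩ := hsp N
    simp only [map_add, map_smul, add_apply, smul_apply, smul_eq_mul, h.symm u hu e1 e0]
    ring
  have h3 : gram e0 e1 (cG G f) u = Real.exp (2 * f u) ^ 2 * gram e0 e1 G u := by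
    simp only [gram, cG_apply]
    ring
  have h4 := (Real.exp_pos (2 * f u)).ne'
  rw [h2, add_zero] at h1
  rw [aL_apply, bL_apply]
  unfold Kc
  rw [h1, h3]
  field_simp
  ring

end two

end Vale.Agent.P207Z.Two
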