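import Vale.Agent.P207Z.Two.Sol2
import Vale.Agent.P207Z.Two.Geo
import Vale.Agent.P207.R2.H327.Conf

/-!
# P207, dimension two: uniformization in negative curvature, and Katok's theorem for surfaces
-/

open scoped Manifold ContDiff ENNReal Topology
open Set Filter MeasureTheory

set_option maxSynthPendingDepth 3
set_option linter.unusedSectionVars false

noncomputable section

namespace Vale.Agent.P207Z.Two

open Vale.Agent.P255 Vale.Agent.P207 Vale.Agent.P207.D1
open Vale.Agent.P272.K.LIN (CkFn RSm ckFn_of_local ckFn_continuous)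

section gen

variable {E : Type} [NormedAddCommGroup E] [NormedSpace ℝ E] [FiniteDimensional ℝ E]
  {M : Type} [TopologicalSpace M] [ChartedSpace E M] [IsManifold 𝓘(ℝ, E) ∞ M]

theorem ck_on {f : M → ℝ} (hf : CkFn E ∞ f) (a : M) :
    ContDiffOn ℝ ∞ (fun y => f ((chartAt E a).symm y)) (chartAt E a).target := fun _ hy =>
  (hf.at_target (chart_mem_atlas E a) hy).contDiffWithinAt

/-- the conformal metric -/
def confM (g : Metric E M) (f : M → ℝ) (hf : CkFn E ∞ f) : Metric E M where
  coef a := cG (g.coef a) fun y => f ((chartAt E a).symm y)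
  smooth a := (isMetricOn_cG (g.isMetricOn a) (ck_on hf a)).smooth
  symm a := (isMetricOn_cG (g.isMetricOn a) (ck_on hf a)).symm
  pos a := (isMetricOn_cG (g.isMetricOn a) (ck_on hf a)).pos
  compat a b u hu hb v w := by
    rw [cG_apply, cG_apply, g.compat a b u hu hb]
    unfold P255.trans
    rw [(chartAt E b).left_inv hb]

variable (e0 e1 : E)

/-- the Gauss curvature as a function on the manifold -/
def KM (g : Metric E M) (x : M) : ℝ := Kc e0 e1 (g.coef x) (chartAt E x x)

/-- the Laplacian, defined by the conformal change of the curvature -/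
def Lop (g : Metric E M) (f : M → ℝ) (x : M) : ℝ :=
  KM e0 e1 g x - Real.exp (2 * f x) *
    Kc e0 e1 (cG (g.coef x) fun y => f ((chartAt E x).symm y)) (chartAt E x x)

variable {e0 e1}

theorem KM_symm (hi : LinearIndependent ℝ ![e0, e1])
    (hsp : ∀ v : E, ∃ a b : ℝ, v = a • e0 + b • e1) (g : Metric E M) (a : M) {u : E}
    (hu : u ∈ (chartAt E a).target) :
    KM e0 e1 g ((chartAt E a).symm u) = Kc e0 e1 (g.coef a) u := by
  have hev := eventually_trans a ((chartAt E a).symm u) hu (mem_chart_source E _)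
  exact Kc_trans hi hsp (g.isMetricOn a) (g.isMetricOn ((chartAt E a).symm u))
    (τ := trans E a ((chartAt E a).symm u)) hu
    (hev.mono fun x hx => (chartAt E _).map_source hx.2)
    (hev.mono fun x hx => contDiffAt_trans_chart a _ hx.1 hx.2)
    (hev.mono fun x hx v w => g.compat a _ x hx.1 hx.2 v w)

theorem KM_ck (hi : LinearIndependent ℝ ![e0, e1])
    (hsp : ∀ v : E, ∃ a b : ℝ, v = a • e0 + b • e1) (g : Metric E M) :
    CkFn E ∞ (KM e0 e1 g) := by
  have := rsm_of (E := E) (M := M)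
  refine ckFn_of_local le_rfl fun x => ⟨chartAt E x, chart_mem_atlas E x, mem_chart_source E x, ?_⟩
  have hu := mem_chart_target E x
  refine (contDiffAt_Kc hi (g.isMetricOn x) hu).congr_of_eventuallyEq ?_
  filter_upwards [(chartAt E x).open_target.mem_nhds hu] with y hy
  exact KM_symm hi hsp g x hy

/-- conformal change to constant curvature `-1` -/
theorem exists_conf [T2Space M] [CompactSpace M] (hi : LinearIndependent ℝ ![e0, e1])
    (hsp : ∀ v : E, ∃ a b : ℝ, v = a • e0 + b • e1) (g : Metric E M)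
    (hK : ∀ x, KM e0 e1 g x < 0) :
    ∃ (f : M → ℝ) (hf : CkFn E ∞ f), ∀ x, KM e0 e1 (confM g f hf) x = -1 := by
  have := rsm_of (E := E) (M := M)
  obtain ⟨f, hf, h⟩ := solve_exp (Lop := Lop e0 e1 g) (fun x0 => ⟨chartAt E x0,
    chart_mem_atlas E x0, mem_chart_source E x0, (chartAt E x0).target,
    (chartAt E x0).open_target, Subset.rfl, mem_chart_target E x0, aL e0 e1 (g.coef x0),
    bL e0 e1 (g.coef x0), contDiffOn_aL hi (g.isMetricOn x0), contDiffOn_bL hi (g.isMetricOn x0),
    fun y hy ξ hξ => aL_pos hi hsp (g.isMetricOn x0) hy ξ hξ, fun f hf y hy => by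
      rw [← Kc_cG hi hsp (g.isMetricOn x0) (ck_on hf x0) hy, ← KM_symm hi hsp g x0 hy]
      have h1 := KM_symm hi hsp (confM g f hf) x0 hy
      exact congrArg (fun t => KM e0 e1 g ((chartAt E x0).symm y) -
        Real.exp (2 * f ((chartAt E x0).symm y)) * t) h1⟩) (KM_ck hi hsp g) hK
  refine ⟨f, hf, fun x => ?_⟩
  have h1 : KM e0 e1 g x - Real.exp (2 * f x) * KM e0 e1 (confM g f hf) x =
      KM e0 e1 g x + Real.exp (2 * f x) := h x
  have h2 := Real.exp_pos (2 * f x)
  have h3 : Real.exp (2 * f x) * (KM e0 e1 (confM g f hf) x + 1) = 0 := by linarith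
  have h4 := (mul_eq_zero.1 h3).resolve_left h2.ne'
  linarith

end gen

theorem indep2 : LinearIndependent ℝ ![P207F.stdB 2 0, P207F.stdB 2 1] := by
  rw [LinearIndependent.pair_iff]
  intro s t hst
  have h0 := congrArg (fun w : EV 2 => w 0) hst
  have h1 := congrArg (fun w : EV 2 => w 1) hst
  simp [P207F.stdB] at h0 h1
  exact ⟨h0, h1⟩

theorem span2 (v : EV 2) : ∃ a b : ℝ, v = a • P207F.stdB 2 0 + b • P207F.stdB 2 1 := by
  refine ⟨v 0, v 1, ?_⟩
  ext i
  fin_cases i <;> simp [P207F.stdB]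

variable {M : Type} [TopologicalSpace M] [CompactSpace M] [T2Space M]
  [ChartedSpace (EV 2) M] [IsManifold 𝓘(ℝ, EV 2) ∞ M]

/-- a negatively curved metric on a closed surface is conformal to a hyperbolic metric -/
theorem uniformize (g : RMetric (EV 2) M) (hN : NegCurvature g) :
    ∃ (g₀ : RMetric (EV 2) M) (u : M → ℝ), Continuous u ∧ R2.H327.Conf g₀ g u ∧
      NegCurvature g₀ ∧ LocSymmetric g₀ := by
  obtain ⟨f, hf, h⟩ := exists_conf indep2 span2 (mt g) fun x => by
    have h1 := negOn hN x _ (mem_chart_target (EV 2) x) _ _ indep2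
    exact div_neg_of_neg_of_pos h1
      (gram_pos ((mt g).isMetricOn x) (mem_chart_target (EV 2) x) indep2)
  obtain ⟨g', hg'⟩ : ∃ g', g' = confM (mt g) f hf := ⟨_, rfl⟩
  rw [← hg'] at h
  have hc : ∀ a, ∀ u ∈ (chartAt (EV 2) a).target, ∀ v w,
      coefIn g'.toR a u v w = g'.coef a u v w := fun a u hu v w => by
    rw [← coefL_toR g' a hu]
    rfl
  have hsec : ∀ a, ∀ u ∈ (chartAt (EV 2) a).target, ∀ v w,
      coefIn g'.toR a u (Riem (coefIn g'.toR a) u v w w) v =
        -1 * (g'.coef a u v v * g'.coef a u w w - g'.coef a u v w ^ 2) := by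
    intro a u hu v w
    rw [hc a u hu, riem_eq (g'.isMetricOn a) (hc a) hu, ← curvT_apply (g'.isMetricOn a) hu,
      sec_eq indep2 span2 (g'.isMetricOn a) hu, ← KM_symm indep2 span2 g' a hu, h]
  refine ⟨g'.toR, fun x => -f x, (ckFn_continuous hf).neg, fun x v w => ?_,
    fun a u hu v w hvw => ?_, Q.locSymmetric_of_const (κ := -1) fun a u hu v w => ?_⟩
  · have h1 : g'.toR.inner x v w = Real.exp (2 * f x) * g.inner x v w := by
      have h2 : g'.toR.inner x v w = Real.exp (2 * f ((chartAt (EV 2) x).symm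
          (chartAt (EV 2) x x))) * (mt g).ip x (v : EV 2) (w : EV 2) := by
        rw [hg']
        rfl
      rw [h2, ip_eq, (chartAt (EV 2) x).left_inv (mem_chart_source (EV 2) x)]
    rw [h1, ← mul_assoc, ← Real.exp_add]
    simp
  · rw [hsec a u hu]
    have := gram_pos (g'.isMetricOn a) hu hvw
    linarith
  · rw [hsec a u hu, hc a u hu, hc a u hu, hc a u hu, g'.symm a u hu w v]
    ring

theorem ks_le {n : ℕ} (hn : 1 ≤ n) {M : Type} [TopologicalSpace M] [CompactSpace M]
    [T2Space M] [ConnectedSpace M] [ChartedSpace (EV n) M] [IsManifold 𝓘(ℝ, EV n) ∞ M]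
    [MeasurableSpace M] [BorelSpace M] {g : RMetric (EV n) M} {φ : ℝ → UT g → UT g}
    {μ : Measure M} {m : Measure (UT g)} (hφ : IsGeoFlow g φ)
    (hμ : IsRiemVol g μ) (hm : IsLiouville g μ m) (h : NegCurvature g) :
    ksEntropy m (φ 1) ≤ topEntropy (φ 1) := by
  have := hm.1
  have h' := npc_of_neg h
  have h2 := stretch hφ hφ h' h' (ν := m)
    (fun t => IsLiouville.measurePreserving hn hφ hμ hm t) one_pos (by simp [nrm_self])
  simpa using h2

end Vale.Agent.P207Z.Two

namespace Vale.Agent.P207F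

open Vale.Agent.P255 (RMetric)

/-- **Katok's theorem for surfaces.** -/
theorem katok_two (M : Type) [TopologicalSpace M] [CompactSpace M] [T2Space M] [ConnectedSpace M]
    [ChartedSpace (EV 2) M] [IsManifold 𝓘(ℝ, EV 2) ∞ M] [MeasurableSpace M] [BorelSpace M]
    (g : RMetric (EV 2) M) (hN : NegCurvature g) :
    hLiou (stdB 2) g ≤ hTop g ∧ (hLiou (stdB 2) g = hTop g ↔ LocSymmetric g) := by
  have hW := fun g : RMetric (EV 2) M => wellDefined le_rfl g
  have hφ := ((hW g).1 _).2 rfl
  have hμ := ((hW g).2.1 _).2 rfl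
  have hm := ((hW g).2.2 _).2 rfl
  have hN' : P207.NegCurvature g := negCurvature_iff.1 hN
  constructor
  · exact P207Z.Two.ks_le (by norm_num) hφ hμ hm hN'
  obtain ⟨g₀, u, hu, hc, hN₀, hS₀⟩ := P207Z.Two.uniformize g hN'
  by_cases hne : ∃ x y, u x ≠ u y
  · have hφ₀ := ((hW g₀).1 _).2 rfl
    have hμ₀ := ((hW g₀).2.1 _).2 rfl
    have hm₀ := ((hW g₀).2.2 _).2 rfl
    exact ((((P207.main le_rfl).2 g₀ g hN₀ hN' _ _ _ _ _ _ hφ₀ hφ hμ₀ hμ hm₀ hm).2.2
      (Or.inl (P207.R2.H327.mean_conf_lt le_rfl hu hc hne hμ₀ hμ hm₀ hm))).2 hS₀)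
  · push Not at hne
    obtain ⟨x₀⟩ : Nonempty M := inferInstance
    have hS : P207.LocSymmetric g :=
      P207.locSymmetric_of_smul (c := Real.exp (2 * u x₀)) (Real.exp_pos _).ne'
        (fun x v w => by rw [hc x v w, hne x x₀]) hS₀
    exact ⟨fun _ => hS, fun _ => P207.ksEntropy_eq_of_locSymmetric le_rfl hφ hμ hm hN' hS⟩

end Vale.Agent.P207F
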