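import Vale.Agent.P211.H844.PC

/-!
# P207, dimension two: the equation `L h = K + exp (2 h)` on a closed manifold, `K < 0`
-/

set_option maxSynthPendingDepth 3
set_option linter.unusedSectionVars false

open scoped Manifold ContDiff Topology NNReal
open Filter Set Metric

noncomputable section

namespace Vale.Agent.P207Z.Two

open Vale.Agent.P272.K Vale.Agent.P272.K.LIN Vale.Agent.P211.H844

section nem

variable {Y : Type*} {w : Y → Y → ℝ≥0}

/-- composition with a Lipschitz function -/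
def nem (H : ℝ → ℝ) (c : ℝ) (hc : 0 ≤ c) (hH : ∀ s t, |H s - H t| ≤ c * |s - t|)
    (f : Hol w ℝ) : Hol w ℝ :=
  ⟨fun x => H (f x), ⟨|H 0| + c * f.N0, fun x => by
      have h1 := hH (f x) 0
      have h2 : |f x| ≤ f.N0 := f.le_N0 x
      rw [sub_zero] at h1
      have h3 : |H (f x)| ≤ |H (f x) - H 0| + |H 0| := by
        have := abs_add_le (H (f x) - H 0) (H 0)
        simpa using this
      have h4 := mul_le_mul_of_nonneg_left h2 hc
      show |H (f x)| ≤ _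
      linarith⟩,
    ⟨c * f.N1, fun x y => by
      have h1 := hH (f x) (f y)
      have h2 : |f x - f y| ≤ f.N1 * w x y := f.le_N1 x y
      have h4 := mul_le_mul_of_nonneg_left h2 hc
      show |H (f x) - H (f y)| ≤ _
      nlinarith⟩⟩

variable {H : ℝ → ℝ} {c : ℝ} {hc : 0 ≤ c} {hH : ∀ s t, |H s - H t| ≤ c * |s - t|}

theorem nem_apply (f : Hol w ℝ) (x : Y) : nem H c hc hH f x = H (f x) := rfl

theorem norm_nem_le (f : Hol w ℝ) : ‖nem H c hc hH f‖ ≤ |H 0| + c * ‖f‖ := by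
  have h0 := f.N0_nonneg
  have h1 := f.N1_nonneg
  have h := Hol.norm_le_of (f := nem H c hc hH f) (A := |H 0| + c * f.N0) (B := c * f.N1)
    (by positivity) (by positivity) (fun x => by
      have h1 := hH (f x) 0
      have h2 : |f x| ≤ f.N0 := f.le_N0 x
      rw [sub_zero] at h1
      have h3 : |H (f x)| ≤ |H (f x) - H 0| + |H 0| := by
        have := abs_add_le (H (f x) - H 0) (H 0)
        simpa using this
      have h4 := mul_le_mul_of_nonneg_left h2 hc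
      show |H (f x)| ≤ _
      linarith) (fun x y => by
      have h1 := hH (f x) (f y)
      have h2 : |f x - f y| ≤ f.N1 * w x y := f.le_N1 x y
      have h4 := mul_le_mul_of_nonneg_left h2 hc
      show |H (f x) - H (f y)| ≤ _
      nlinarith)
  rw [Hol.norm_def f]
  linarith

theorem N0_nem_sub (f g : Hol w ℝ) :
    (nem H c hc hH f - nem H c hc hH g).N0 ≤ c * (f - g).N0 := by
  refine Hol.N0_le (mul_nonneg hc (Hol.N0_nonneg _)) fun x => ?_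
  have h1 := hH (f x) (g x)
  have h2 : |f x - g x| ≤ (f - g).N0 := (f - g).le_N0 x
  exact h1.trans (mul_le_mul_of_nonneg_left h2 hc)

end nem

section fix

variable {E : Type*} [NormedAddCommGroup E] [NormedSpace ℝ E] [FiniteDimensional ℝ E]
  {X : Type*} [TopologicalSpace X] [ChartedSpace E X] {𝒞 : Cov E X} {α : ℝ}

/-- interpolation for Lipschitz functions -/
theorem interp (h0 : 0 < α) (h1 : α < 1) {Λ : ℝ} (hΛ : 0 ≤ Λ) {ε : ℝ} (hε : 0 < ε) :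
    ∃ C : ℝ, 0 ≤ C ∧ ∀ f : Hol (𝒞.w α) ℝ, (∀ x y, ‖f x - f y‖ ≤ Λ * 𝒞.d x y) →
      ‖f‖ ≤ ε + C * f.N0 := by
  have h1' : 0 < 1 - α := by linarith
  obtain ⟨ρ, hρ0, hρ⟩ : ∃ ρ : ℝ, 0 < ρ ∧ Λ * ρ ^ (1 - α) ≤ ε := by
    refine ⟨(ε / (Λ + 1)) ^ (1 / (1 - α)), by positivity, ?_⟩
    rw [← Real.rpow_mul (by positivity), one_div_mul_cancel h1'.ne', Real.rpow_one]
    rw [mul_div_assoc', div_le_iff₀ (by positivity)]
    nlinarith
  refine ⟨1 + 2 * ρ ^ (-α), by positivity, fun f hf => ?_⟩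
  set N := f.N0 with hN
  have hN0 : 0 ≤ N := Hol.N0_nonneg _
  have hN1 : f.N1 ≤ ε + 2 * ρ ^ (-α) * N := by
    refine Hol.N1_le (by positivity) fun x y => ?_
    have hd0 := 𝒞.d_nonneg x y
    have hw0 : 0 ≤ 𝒞.d x y ^ α := Real.rpow_nonneg hd0 _
    rw [𝒞.coe_w]
    rcases le_or_gt (𝒞.d x y) ρ with hd | hd
    · have h2 : 𝒞.d x y ≤ ρ ^ (1 - α) * 𝒞.d x y ^ α := by
        rcases hd0.eq_or_lt with h | h
        · rw [← h, Real.zero_rpow h0.ne', mul_zero]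
        · calc 𝒞.d x y = 𝒞.d x y ^ (1 - α) * 𝒞.d x y ^ α := by
                rw [← Real.rpow_add h]; simp
            _ ≤ ρ ^ (1 - α) * 𝒞.d x y ^ α := by gcongr
      calc ‖f x - f y‖ ≤ Λ * 𝒞.d x y := hf x y
        _ ≤ Λ * (ρ ^ (1 - α) * 𝒞.d x y ^ α) := by gcongr
        _ = (Λ * ρ ^ (1 - α)) * 𝒞.d x y ^ α := by ring
        _ ≤ ε * 𝒞.d x y ^ α := by gcongr
        _ ≤ (ε + 2 * ρ ^ (-α) * N) * 𝒞.d x y ^ α := by
            gcongr
            have : 0 ≤ 2 * ρ ^ (-α) * N := by positivity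
            linarith
    · have h2 : 1 ≤ ρ ^ (-α) * 𝒞.d x y ^ α := by
        rw [Real.rpow_neg hρ0.le, inv_mul_eq_div, one_le_div (by positivity)]
        gcongr
      calc ‖f x - f y‖ ≤ ‖f x‖ + ‖f y‖ := norm_sub_le _ _
        _ ≤ N + N := add_le_add (Hol.le_N0 _ x) (Hol.le_N0 _ y)
        _ = 2 * N * 1 := by ring
        _ ≤ 2 * N * (ρ ^ (-α) * 𝒞.d x y ^ α) := by gcongr
        _ = (2 * ρ ^ (-α) * N) * 𝒞.d x y ^ α := by ring
        _ ≤ (ε + 2 * ρ ^ (-α) * N) * 𝒞.d x y ^ α := by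
            gcongr
            linarith
  rw [Hol.norm_def]
  calc N + f.N1 ≤ N + (ε + 2 * ρ ^ (-α) * N) := by gcongr
    _ = ε + (1 + 2 * ρ ^ (-α)) * N := by ring

end fix

section abs

variable {Y : Type*} {w : Y → Y → ℝ≥0} {V : Type*} [NormedAddCommGroup V] [NormedSpace ℝ V]

theorem geo_diff {g : ℕ → ℝ} {A θ : ℝ} (hA0 : 0 ≤ A) (hθ0 : 0 ≤ θ) (hθ1 : θ < 1)
    (h : ∀ n, |g (n + 1) - g n| ≤ A * θ ^ n) (n k : ℕ) :
    |g (n + k) - g n| ≤ A * θ ^ n / (1 - θ) := by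
  have h2 : |g (n + k) - g n| ≤ A * (θ ^ n - θ ^ (n + k)) / (1 - θ) := by
    induction k with
    | zero => simp
    | succ k ih =>
      have h3 := h (n + k)
      have h4 := abs_add_le (g (n + k + 1) - g (n + k)) (g (n + k) - g n)
      have h5 : A * (θ ^ n - θ ^ (n + (k + 1))) / (1 - θ) =
          A * θ ^ (n + k) + A * (θ ^ n - θ ^ (n + k)) / (1 - θ) := by
        have : 1 - θ ≠ 0 := by linarith
        field_simp
        ring
      rw [h5, ← add_assoc]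
      have h6 : g (n + k + 1) - g (n + k) + (g (n + k) - g n) = g (n + k + 1) - g n := by ring
      rw [h6] at h4
      linarith
  refine h2.trans (div_le_div_of_nonneg_right ?_ (by linarith))
  have : 0 ≤ A * θ ^ (n + k) := by positivity
  nlinarith

theorem bdd_iter (i : V →L[ℝ] Hol w ℝ) (S : Hol w ℝ →L[ℝ] V) (F : V → Hol w ℝ) (K : Hol w ℝ)
    {c h q : ℝ} (hc : 0 ≤ c) (hh : 0 ≤ h) (hq : 0 ≤ q) (hF : ∀ v, ‖F v‖ ≤ h + c * ‖i v‖)
    (hint : ∀ ε : ℝ, 0 < ε → ∃ C : ℝ, ∀ v, ‖i v‖ ≤ ε * ‖v‖ + C * (i v).N0)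
    {u : ℕ → V} (hu0 : u 0 = 0) (hus : ∀ n, u (n + 1) = S (F (u n) - K))
    (hsup : ∀ n, (i (u n)).N0 ≤ q) : ∃ B, 0 ≤ B ∧ ∀ n, ‖u n‖ ≤ B := by
  have hε : 0 < 1 / (2 * (‖S‖ * c + 1)) := by positivity
  obtain ⟨C, hC⟩ := hint _ hε
  obtain ⟨B0, hB0⟩ : ∃ B0 : ℝ, B0 = ‖S‖ * (h + c * (|C| * q) + ‖K‖) := ⟨_, rfl⟩
  have hB00 : 0 ≤ B0 := by rw [hB0]; positivity
  refine ⟨2 * B0, by positivity, fun n => ?_⟩
  induction n with
  | zero =>
    rw [hu0, norm_zero]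
    positivity
  | succ n ih =>
    rw [hus]
    have h2 := S.le_opNorm (F (u n) - K)
    have h3 := norm_sub_le (F (u n)) K
    have h4 := hF (u n)
    have h5 := hC (u n)
    have h6 : C * (i (u n)).N0 ≤ |C| * q :=
      (mul_le_mul_of_nonneg_right (le_abs_self C) (Hol.N0_nonneg _)).trans
        (mul_le_mul_of_nonneg_left (hsup n) (abs_nonneg C))
    have h7 : ‖S‖ * c * (1 / (2 * (‖S‖ * c + 1))) ≤ 1 / 2 := by
      rw [mul_one_div, div_le_iff₀ (by positivity)]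
      linarith
    have h8 : ‖i (u n)‖ ≤ 1 / (2 * (‖S‖ * c + 1)) * ‖u n‖ + |C| * q := by
      linarith
    have h9 : ‖F (u n) - K‖ ≤ h + c * (1 / (2 * (‖S‖ * c + 1)) * ‖u n‖ + |C| * q) + ‖K‖ := by
      have := mul_le_mul_of_nonneg_left h8 hc
      linarith
    have h10 := mul_le_mul_of_nonneg_left h9 (norm_nonneg S)
    have h11 : ‖S‖ * (h + c * (1 / (2 * (‖S‖ * c + 1)) * ‖u n‖ + |C| * q) + ‖K‖) =
        B0 + ‖S‖ * c * (1 / (2 * (‖S‖ * c + 1))) * ‖u n‖ := by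
      rw [hB0]; ring
    have h12 := mul_le_mul_of_nonneg_right h7 (norm_nonneg (u n))
    linarith

theorem fix_abs (i : V →L[ℝ] Hol w ℝ) (S : Hol w ℝ →L[ℝ] V) (d : Y → Y → ℝ)
    (hd : ∀ x y, 0 ≤ d x y) {l c : ℝ} (hc : 0 ≤ c) (hcl : c < l)
    (hmax : ∀ f, l * (i (S f)).N0 ≤ f.N0)
    (hint : ∀ ε : ℝ, 0 < ε → ∃ C : ℝ, ∀ v, ‖i v‖ ≤ ε * ‖v‖ + C * (i v).N0)
    {Kl : ℝ} (hKl0 : 0 ≤ Kl) (hKl : ∀ v x y, ‖i v x - i v y‖ ≤ Kl * ‖v‖ * d x y)
    (hlip : ∀ Λ : ℝ, 0 ≤ Λ → ∀ ε : ℝ, 0 < ε → ∃ C : ℝ, 0 ≤ C ∧ ∀ f : Hol w ℝ,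
      (∀ x y, ‖f x - f y‖ ≤ Λ * d x y) → ‖f‖ ≤ ε + C * f.N0)
    {H : ℝ → ℝ} (hH : ∀ s t, |H s - H t| ≤ c * |s - t|) (K : Hol w ℝ) :
    ∃ f : Hol w ℝ, ∀ x, f x = H (i (S (f - K)) x) := by
  have hl : 0 < l := lt_of_le_of_lt hc hcl
  obtain ⟨F, hF⟩ : ∃ F : V → Hol w ℝ, ∀ v, F v = nem H c hc hH (i v) := ⟨_, fun _ => rfl⟩
  have hFx : ∀ v x, F v x = H (i v x) := fun v x => by rw [hF, nem_apply]
  obtain ⟨u, hu0, hus⟩ : ∃ u : ℕ → V, u 0 = 0 ∧ ∀ n, u (n + 1) = S (F (u n) - K) :=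
    ⟨fun n => (fun v => S (F v - K))^[n] 0, rfl, fun n => Function.iterate_succ_apply' _ _ _⟩
  obtain ⟨θ, hθ⟩ : ∃ θ : ℝ, θ = c / l := ⟨_, rfl⟩
  have hθ0 : 0 ≤ θ := by rw [hθ]; exact div_nonneg hc hl.le
  have hθ1 : θ < 1 := by rw [hθ]; exact (div_lt_one hl).2 hcl
  have hcon : ∀ v v', (i (S (F v - K)) - i (S (F v' - K))).N0 ≤ θ * (i v - i v').N0 := by
    intro v v'
    have h2 := hmax (F v - F v')
    have h3 : (F v - F v').N0 ≤ c * (i v - i v').N0 := by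
      rw [hF, hF]
      exact N0_nem_sub _ _
    have h4 : i (S (F v - K)) - i (S (F v' - K)) = i (S (F v - F v')) := by
      rw [← map_sub, ← map_sub]
      congr 2
      abel
    rw [h4, hθ, div_mul_eq_mul_div, le_div_iff₀ hl]
    linarith
  obtain ⟨A, hA⟩ : ∃ A : ℝ, A = (i (u (0 + 1)) - i (u 0)).N0 := ⟨_, rfl⟩
  have hA0 : 0 ≤ A := by rw [hA]; exact Hol.N0_nonneg _
  have hstep : ∀ n, (i (u (n + 1)) - i (u n)).N0 ≤ A * θ ^ n := by
    intro n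
    induction n with
    | zero => rw [pow_zero, mul_one, hA]
    | succ n ih =>
      have h2 := hcon (u (n + 1)) (u n)
      rw [← hus, ← hus] at h2
      calc _ ≤ θ * (i (u (n + 1)) - i (u n)).N0 := h2
        _ ≤ θ * (A * θ ^ n) := by gcongr
        _ = A * θ ^ (n + 1) := by ring
  have hdiff : ∀ n k x, |i (u (n + k)) x - i (u n) x| ≤ A * θ ^ n / (1 - θ) := fun n k x =>
    geo_diff (g := fun n => i (u n) x) hA0 hθ0 hθ1
      (fun n => ((i (u (n + 1)) - i (u n)).le_N0 x).trans (hstep n)) n k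
  have hq : 0 ≤ A / (1 - θ) := div_nonneg hA0 (by linarith)
  have hsup : ∀ n, (i (u n)).N0 ≤ A / (1 - θ) := by
    intro n
    refine Hol.N0_le hq fun x => ?_
    have h2 := hdiff 0 n x
    have h3 : i (u 0) x = 0 := by rw [hu0, map_zero]; rfl
    rw [h3, sub_zero, zero_add, pow_zero, mul_one] at h2
    exact h2
  obtain ⟨B, hB0, hB⟩ := bdd_iter i S F K hc (abs_nonneg (H 0)) hq
    (fun v => by rw [hF]; exact norm_nem_le _) hint hu0 hus hsup
  have hlip' : ∀ n x y, ‖F (u n) x - F (u n) y‖ ≤ c * (Kl * B) * d x y := by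
    intro n x y
    have h2 := hH (i (u n) x) (i (u n) y)
    have h3 : |i (u n) x - i (u n) y| ≤ Kl * B * d x y :=
      (hKl (u n) x y).trans (mul_le_mul_of_nonneg_right
        (mul_le_mul_of_nonneg_left (hB n) hKl0) (hd x y))
    have h4 := mul_le_mul_of_nonneg_left h3 hc
    rw [hFx, hFx, Real.norm_eq_abs]
    nlinarith
  have hcau : CauchySeq fun n => F (u n) := by
    refine Metric.cauchySeq_iff'.2 fun ε hε => ?_
    obtain ⟨C, hC0, hC⟩ := hlip (2 * (c * (Kl * B))) (by positivity) _ (half_pos hε)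
    have ht : Tendsto (fun n : ℕ => C * (c * (A * θ ^ n / (1 - θ)))) atTop (𝓝 0) := by
      have := (((tendsto_pow_atTop_nhds_zero_of_lt_one hθ0 hθ1).const_mul A).div_const
        (1 - θ)).const_mul c |>.const_mul C
      simpa using this
    obtain ⟨N, hN⟩ := (ht.eventually (gt_mem_nhds (half_pos hε))).exists
    refine ⟨N, fun n hn => ?_⟩
    obtain ⟨k, rfl⟩ := Nat.exists_eq_add_of_le hn
    rw [dist_eq_norm]
    have h2 := hC (F (u (N + k)) - F (u N)) fun x y => by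
      have h3 := hlip' (N + k) x y
      have h4 := hlip' N x y
      have h5 : (F (u (N + k)) - F (u N)) x - (F (u (N + k)) - F (u N)) y =
          (F (u (N + k)) x - F (u (N + k)) y) - (F (u N) x - F (u N) y) := by
        show F (u (N + k)) x - F (u N) x - (F (u (N + k)) y - F (u N) y) = _
        ring
      rw [h5]
      refine (norm_sub_le _ _).trans ?_
      linarith
    have h3 : (F (u (N + k)) - F (u N)).N0 ≤ c * (A * θ ^ N / (1 - θ)) := by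
      rw [hF, hF]
      refine (N0_nem_sub _ _).trans (mul_le_mul_of_nonneg_left ?_ hc)
      exact Hol.N0_le (div_nonneg (by positivity) (by linarith)) fun x => hdiff N k x
    have h4 := mul_le_mul_of_nonneg_left h3 hC0
    linarith
  obtain ⟨f, hf⟩ := cauchySeq_tendsto_of_complete hcau
  have hv : Tendsto u atTop (𝓝 (S (f - K))) := by
    rw [← tendsto_add_atTop_iff_nat 1]
    simp only [hus]
    exact (S.continuous.tendsto _).comp (hf.sub_const K)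
  refine ⟨f, fun x => ?_⟩
  have h3 : Tendsto (fun n => F (u n) x) atTop (𝓝 (f x)) :=
    ((Hol.continuous_eval x).tendsto f).comp hf
  have h4 : Tendsto (fun n => i (u n) x) atTop (𝓝 (i (S (f - K)) x)) :=
    ((Hol.continuous_eval x).tendsto _).comp ((i.continuous.tendsto _).comp hv)
  have hHc : Continuous H := by
    refine (LipschitzWith.of_dist_le_mul (K := ⟨c, hc⟩) fun s t => ?_).continuous
    rw [Real.dist_eq, Real.dist_eq]
    exact hH s t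
  have h5 : Tendsto (fun n => F (u n) x) atTop (𝓝 (H (i (S (f - K)) x))) := by
    simp only [hFx]
    exact (hHc.tendsto _).comp h4
  exact tendsto_nhds_unique h3 h5

end abs

section fix2

variable {E : Type*} [NormedAddCommGroup E] [NormedSpace ℝ E] [FiniteDimensional ℝ E]
  {X : Type*} [TopologicalSpace X] [ChartedSpace E X] {𝒞 : Cov E X} {α : ℝ}
  [T2Space X] [CompactSpace X] [RSm E X] {L : 𝒞.C2 α →L[ℝ] Hol (𝒞.w α) ℝ}
  {a : Fin 𝒞.N → E → (E →L[ℝ] E →L[ℝ] ℝ) →L[ℝ] ℝ} {b : Fin 𝒞.N → E → (E →L[ℝ] ℝ) →L[ℝ] ℝ}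

theorem exists_inv (h0 : 0 < α) (h1 : α < 1) (hell : Cov.Ell 𝒞 α L a b) {l : ℝ} (hl : 0 < l) :
    ∃ S : Hol (𝒞.w α) ℝ →L[ℝ] 𝒞.C2 α, ∀ f, l • 𝒞.incl α (S f) - L (S f) = f := by
  have hcomp := 𝒞.completeSpace_C2 h0
  obtain ⟨Λ, hΛ, hs⟩ := 𝒞.surj_large h0 h1 hell
  have hb := hell.bijective h0 h1 Λ (by linarith) (hs Λ le_rfl) l hl
  obtain ⟨T, hT⟩ : ∃ T : 𝒞.C2 α →L[ℝ] Hol (𝒞.w α) ℝ, T = l • 𝒞.incl α - L := ⟨_, rfl⟩
  have hTb : Function.Bijective T := by rw [hT]; exact hb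
  let e : 𝒞.C2 α ≃L[ℝ] Hol (𝒞.w α) ℝ := ContinuousLinearEquiv.ofBijective T
    (LinearMap.ker_eq_bot.2 hTb.1) (LinearMap.range_eq_top.2 hTb.2)
  refine ⟨(e.symm : Hol (𝒞.w α) ℝ →L[ℝ] 𝒞.C2 α), fun f => ?_⟩
  have h2 : T (e.symm f) = f := e.apply_symm_apply f
  rw [hT] at h2
  exact h2

/-- the fixed point: `l v - L v = H v - K` if `H` is Lipschitz with a constant `c < l` -/
theorem exists_fix (h0 : 0 < α) (h1 : α < 1) (hell : Cov.Ell 𝒞 α L a b) {l c : ℝ} (hc : 0 ≤ c)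
    (hcl : c < l) {H : ℝ → ℝ} (hH : ∀ s t, |H s - H t| ≤ c * |s - t|) (K : Hol (𝒞.w α) ℝ) :
    ∃ v : 𝒞.C2 α, ∀ x, l * 𝒞.fn v x - L v x = H (𝒞.fn v x) - K x := by
  have hl : 0 < l := lt_of_le_of_lt hc hcl
  obtain ⟨S, hS⟩ := exists_inv h0 h1 hell hl
  obtain ⟨Kl, hKl0, hKl⟩ := 𝒞.exists_lip_C2 (α := α)
  obtain ⟨f, hf⟩ := fix_abs (𝒞.incl α) S 𝒞.d 𝒞.d_nonneg hc hcl
    (fun f => by
      have h2 := hell.max l hl (S f)
      rw [hS] at h2
      exact h2)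
    (fun ε hε => 𝒞.incl_interp h0 h1 ε hε) hKl0 hKl
    (fun Λ hΛ ε hε => interp h0 h1 hΛ hε) hH K
  refine ⟨S (f - K), fun x => ?_⟩
  have h2 : l * 𝒞.fn (S (f - K)) x - L (S (f - K)) x = f x - K x :=
    congrArg (fun g : Hol (𝒞.w α) ℝ => g x) (hS (f - K))
  rw [h2, hf x]
  rfl

end fix2

end Vale.Agent.P207Z.Two
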