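import Vale.Agent.P207Z.Two.Sol

/-!
# P207, dimension two: smooth solutions of `L h = K + exp (2 h)` for `K < 0`
-/

set_option maxSynthPendingDepth 3
set_option linter.unusedSectionVars false

open scoped Manifold ContDiff Topology NNReal
open Filter Set Metric

noncomputable section

namespace Vale.Agent.P207Z.Two

open Vale.Agent.P272.K Vale.Agent.P272.K.LIN Vale.Agent.P211.H844

/-- the truncated exponential -/
theorem exists_trunc {a b : ℝ} (hab : a ≤ b) : ∃ (G : ℝ → ℝ) (m M : ℝ), 0 < m ∧ m ≤ M ∧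
    (∀ s t, s ≤ t → m * (t - s) ≤ G t - G s ∧ G t - G s ≤ M * (t - s)) ∧
    ∀ t, a ≤ t → t ≤ b → G t = Real.exp (2 * t) := by
  refine ⟨fun t => Real.exp (2 * max a (min b t)) + 2 * Real.exp (2 * a) * (t - max a (min b t)),
    2 * Real.exp (2 * a), 2 * Real.exp (2 * b), by positivity, by gcongr, fun s t hst => ?_,
    fun t h1 h2 => ?_⟩
  · obtain ⟨x, hx⟩ : ∃ x, x = max a (min b s) := ⟨_, rfl⟩
    obtain ⟨y, hy⟩ : ∃ y, y = max a (min b t) := ⟨_, rfl⟩
    have h1 : a ≤ x := hx ▸ le_max_left _ _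
    have h2 : y ≤ b := hy ▸ max_le hab (min_le_left _ _)
    have h3 : x ≤ y := by rw [hx, hy]; gcongr
    have h4 : y - x ≤ t - s := by
      rw [hx, hy]
      simp only [max_def, min_def]
      split_ifs <;> linarith
    have h5 : Real.exp (2 * x) * (2 * y - 2 * x) ≤ Real.exp (2 * y) - Real.exp (2 * x) := by
      have h6 : Real.exp (2 * y) = Real.exp (2 * x) * Real.exp (2 * y - 2 * x) := by
        rw [← Real.exp_add]; congr 1; ring
      have h7 := Real.add_one_le_exp (2 * y - 2 * x)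
      have h8 := Real.exp_pos (2 * x)
      rw [h6]
      nlinarith
    have h6 : Real.exp (2 * y) - Real.exp (2 * x) ≤ Real.exp (2 * y) * (2 * y - 2 * x) := by
      have h6 : Real.exp (2 * x) = Real.exp (2 * y) * Real.exp (2 * x - 2 * y) := by
        rw [← Real.exp_add]; congr 1; ring
      have h7 := Real.add_one_le_exp (2 * x - 2 * y)
      have h8 := Real.exp_pos (2 * y)
      rw [h6]
      nlinarith
    have h7 : Real.exp (2 * a) ≤ Real.exp (2 * x) := by gcongr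
    have h8 : Real.exp (2 * y) ≤ Real.exp (2 * b) := by gcongr
    have h9 : Real.exp (2 * a) ≤ Real.exp (2 * b) := by gcongr
    have h10 := mul_le_mul_of_nonneg_right h7 (show 0 ≤ 2 * y - 2 * x by linarith)
    have h11 := mul_le_mul_of_nonneg_right h8 (show 0 ≤ 2 * y - 2 * x by linarith)
    have h12 := mul_le_mul_of_nonneg_right h9 (show 0 ≤ (t - s) - (y - x) by linarith)
    simp only [← hx, ← hy]
    constructor <;> nlinarith
  · simp only [min_eq_right h2, max_eq_right h1, sub_self, mul_zero, add_zero]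

section c2

variable {E : Type*} [NormedAddCommGroup E] [NormedSpace ℝ E] [FiniteDimensional ℝ E]
  {X : Type*} [TopologicalSpace X] [ChartedSpace E X] {𝒞 : Cov E X} {α : ℝ}
  [T2Space X] [CompactSpace X] [RSm E X] {L : 𝒞.C2 α →L[ℝ] Hol (𝒞.w α) ℝ}
  {a : Fin 𝒞.N → E → (E →L[ℝ] E →L[ℝ] ℝ) →L[ℝ] ℝ} {b : Fin 𝒞.N → E → (E →L[ℝ] ℝ) →L[ℝ] ℝ}

theorem exists_c2 (h0 : 0 < α) (h1 : α < 1) (hell : Cov.Ell 𝒞 α L a b) (K : Hol (𝒞.w α) ℝ)
    (hKc : Continuous K) (hK : ∀ x, K x < 0) :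
    ∃ v : 𝒞.C2 α, ∀ x, L v x = K x + Real.exp (2 * 𝒞.fn v x) := by
  rcases isEmpty_or_nonempty X with hX | hX
  · exact ⟨0, fun x => (hX.false x).elim⟩
  obtain ⟨x1, -, hx1⟩ := isCompact_univ.exists_isMaxOn univ_nonempty hKc.continuousOn
  obtain ⟨x2, -, hx2⟩ := isCompact_univ.exists_isMinOn univ_nonempty hKc.continuousOn
  have hx1' : ∀ x, K x ≤ K x1 := fun x => hx1 (mem_univ x)
  have hx2' : ∀ x, K x2 ≤ K x := fun x => hx2 (mem_univ x)
  obtain ⟨A, hA⟩ : ∃ A : ℝ, Real.exp (2 * A) = -K x1 :=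
    ⟨Real.log (-K x1) / 2, by
      rw [mul_div_cancel₀ _ (two_ne_zero), Real.exp_log (by linarith [hK x1])]⟩
  obtain ⟨B, hB⟩ : ∃ B : ℝ, Real.exp (2 * B) = -K x2 :=
    ⟨Real.log (-K x2) / 2, by
      rw [mul_div_cancel₀ _ (two_ne_zero), Real.exp_log (by linarith [hK x2])]⟩
  have hAB : A ≤ B := by
    have h2 : Real.exp (2 * A) ≤ Real.exp (2 * B) := by
      rw [hA, hB]; linarith [hx1' x2]
    have := Real.exp_le_exp.1 h2
    linarith
  obtain ⟨G, m, M, hm, hmM, hG, hGe⟩ := exists_trunc hAB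
  obtain ⟨v, hv⟩ := exists_fix h0 h1 hell (l := M) (c := M - m) (by linarith) (by linarith)
    (H := fun t => M * t - G t) (fun s t => by
      rcases le_total s t with h | h
      · have h2 := hG s t h
        rw [abs_sub_comm s t, abs_of_nonneg (sub_nonneg.2 h), abs_le]
        constructor <;> nlinarith [h2.1, h2.2]
      · have h2 := hG t s h
        rw [abs_of_nonneg (sub_nonneg.2 h), abs_le]
        constructor <;> nlinarith [h2.1, h2.2]) K
  have hv' : ∀ x, L v x = K x + G (𝒞.fn v x) := fun x => by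
    have := hv x
    linarith
  have hvc : Continuous (𝒞.fn v) := ckFn_continuous (𝒞.fn_ck v)
  have hup : ∀ x, 𝒞.fn v x ≤ B := by
    obtain ⟨y, -, hy⟩ := isCompact_univ.exists_isMaxOn univ_nonempty hvc.continuousOn
    have hy' : ∀ x, 𝒞.fn v x ≤ 𝒞.fn v y := fun x => hy (mem_univ x)
    obtain ⟨e, he⟩ := hell.ellAt v y
    have h2 := he.nonpos (Filter.Eventually.of_forall hy')
    intro x
    refine (hy' x).trans ?_
    by_contra h3
    push Not at h3
    have h4 := (hG B (𝒞.fn v y) h3.le).1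
    rw [hGe B hAB le_rfl, hB] at h4
    have h5 := hv' y
    have h6 := hx2' y
    have h7 : 0 < m * (𝒞.fn v y - B) := mul_pos hm (by linarith)
    linarith
  have hlo : ∀ x, A ≤ 𝒞.fn v x := by
    obtain ⟨y, -, hy⟩ := isCompact_univ.exists_isMinOn univ_nonempty hvc.continuousOn
    have hy' : ∀ x, 𝒞.fn v y ≤ 𝒞.fn v x := fun x => hy (mem_univ x)
    obtain ⟨e, he⟩ := hell.ellAt v y
    have h2 := he.neg.nonpos (Filter.Eventually.of_forall fun x => neg_le_neg (hy' x))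
    intro x
    refine le_trans ?_ (hy' x)
    by_contra h3
    push Not at h3
    have h4 := (hG (𝒞.fn v y) A h3.le).1
    rw [hGe A le_rfl hAB, hA] at h4
    have h5 := hv' y
    have h6 := hx1' y
    have h7 : 0 < m * (A - 𝒞.fn v y) := mul_pos hm (by linarith)
    linarith
  exact ⟨v, fun x => by rw [hv' x, hGe _ (hlo x) (hup x)]⟩

end c2

section reg

variable {E : Type} [NormedAddCommGroup E] [NormedSpace ℝ E] [FiniteDimensional ℝ E]

theorem exp_reg {α : ℝ} (hα : 0 < α) (hα1 : α < 1) {U : Set E} (hU : IsOpen U)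
    {a : E → (E →L[ℝ] E →L[ℝ] ℝ) →L[ℝ] ℝ} {b : E → (E →L[ℝ] ℝ) →L[ℝ] ℝ} {F z : E → ℝ}
    (ha : ContDiffOn ℝ ∞ a U) (hb : ContDiffOn ℝ ∞ b U) (hF : ContDiffOn ℝ ∞ F U)
    (hpos : ∀ y ∈ U, ∀ ξ : E →L[ℝ] ℝ, ξ ≠ 0 → 0 < a y (ξ.smulRight ξ))
    (hz : R.HC α U 2 z)
    (heq : ∀ y ∈ U, a y (fderiv ℝ (fderiv ℝ z) y) + b y (fderiv ℝ z y) =
      F y + Real.exp (2 * z y)) :
    ContDiffOn ℝ ∞ z U := by
  have hsm : ∀ (k : ℕ) {V : Type} [NormedAddCommGroup V] [NormedSpace ℝ V] {f : E → V},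
      ContDiffOn ℝ ∞ f U → R.HC α U k f := fun k V _ _ f hf =>
    R.HC.of_contDiff hα hα1.le hU fun x hx =>
      (hf.contDiffAt (hU.mem_nhds hx)).of_le (by exact_mod_cast le_top)
  have key : ∀ k : ℕ, R.HC α U (k + 2) z := by
    intro k
    induction k with
    | zero => exact hz
    | succ k ih =>
      have h1 : R.HC α U (k + 1) (fun y => b y (fderiv ℝ z y)) := by
        have := (hsm (k + 1) hb).bilin hα hα1.le hU (ContinuousLinearMap.id ℝ ((E →L[ℝ] ℝ) →L[ℝ] ℝ))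
          ih.2
        exact this
      have h3 : R.HC α U (k + 1) (fun y => -Real.exp (2 * z y)) :=
        R.HC.comp_smooth hα hα1.le hU (φ := fun t : ℝ => -Real.exp (2 * t)) isOpen_univ
          (fun t _ => by fun_prop) (R.HC.of_succ hα hα1.le hU ih) fun _ _ => mem_univ _
      have h2 : R.HC α U (k + 1) (fun y => b y (fderiv ℝ z y) + (-F y + -Real.exp (2 * z y))) :=
        h1.add hU ((hsm (k + 1) hF.neg).add hU h3)
      refine R.linear_reg hα hα1.le (R.allCCE E hα hα1) hU (k + 1) (hsm _ ha)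
        (R.hc_const (0 : ℝ) hU) h2 hpos hz fun y hy => ?_
      have := heq y hy
      show a y (fderiv ℝ (fderiv ℝ z) y) + 0 * z y +
        (b y (fderiv ℝ z y) + (-F y + -Real.exp (2 * z y))) = 0
      linarith
  rw [contDiffOn_infty]
  intro n
  exact ((key n).contDiffOn hα hU).of_le (by norm_cast; omega)

variable {X : Type*} [TopologicalSpace X] [ChartedSpace E X] [T2Space X] [CompactSpace X]
  [RSm E X] {𝒞 : Cov E X} {Lop : (X → ℝ) → X → ℝ}
  {a : Fin 𝒞.N → E → (E →L[ℝ] E →L[ℝ] ℝ) →L[ℝ] ℝ} {b : Fin 𝒞.N → E → (E →L[ℝ] ℝ) →L[ℝ] ℝ}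
  {U : Fin 𝒞.N → Set E}

theorem solve_data (D : OpData 𝒞 Lop a b U) {F : X → ℝ} (hF : CkFn E ∞ F) (hF0 : ∀ x, F x < 0) :
    ∃ h : X → ℝ, CkFn E ∞ h ∧ ∀ x, Lop h x = F x + Real.exp (2 * h x) := by
  obtain ⟨v, hv⟩ : ∃ v : 𝒞.C2 (1 / 2), ∀ x, D.L (α := 1 / 2) (by norm_num) (by norm_num) v x =
      F x + Real.exp (2 * 𝒞.fn v x) :=
    exists_c2 (α := 1 / 2) (by norm_num) (by norm_num) (D.ell (by norm_num) (by norm_num))
      (𝒞.ofCk (by norm_num) (by norm_num) F (hF.of_le (by simp))) (ckFn_continuous hF) hF0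
  have hloc : ∀ i, ContDiffOn ℝ ∞ (fun y => 𝒞.fn v ((𝒞.e i).symm y))
      (Metric.ball (𝒞.c i) (2 * 𝒞.r i)) := by
    intro i
    have hsub : ∀ y ∈ Metric.ball (𝒞.c i) (2 * 𝒞.r i), y ∈ (𝒞.e i).target := fun y hy =>
      D.sub i (D.ball2' i hy)
    refine exp_reg (α := 1 / 2) (by norm_num) (by norm_num) isOpen_ball
      (F := fun y => F ((𝒞.e i).symm y))
      ((D.sma i).mono (D.ball2' i)) ((D.smb i).mono (D.ball2' i)) (fun y hy => ?_)
      (fun y hy => D.pos i y (D.ball2' i hy)) (hc_C2 (by norm_num) (by norm_num) v i)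
      fun y hy => ?_
    · exact (hF.at_target (𝒞.mem i) (hsub y hy)).contDiffWithinAt
    · have h1 := hv ((𝒞.e i).symm y)
      rw [D.L_apply (by norm_num) (by norm_num) v ((𝒞.e i).map_target (hsub y hy))
        (by rw [(𝒞.e i).right_inv (hsub y hy)]; exact hy), (𝒞.e i).right_inv (hsub y hy),
        Pop_apply] at h1
      exact h1
  have hsm : CkFn E ∞ (𝒞.fn v) := by
    refine ckFn_of_local le_rfl fun x => ?_
    obtain ⟨i, hx, hxb⟩ := 𝒞.cover x
    exact ⟨𝒞.e i, 𝒞.mem i, hx, (hloc i).contDiffAt (isOpen_ball.mem_nhds (𝒞.ball_sub hxb))⟩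
  refine ⟨𝒞.fn v, hsm, fun x => ?_⟩
  obtain ⟨i, hx, hxb⟩ := 𝒞.cover x
  have h1 := hv x
  rw [D.L_apply (by norm_num) (by norm_num) v hx (𝒞.ball_sub hxb), Pop_apply] at h1
  have h2 := D.eq _ hsm i _ (D.ball2' i (𝒞.ball_sub hxb))
  rw [(𝒞.e i).left_inv hx] at h2
  rw [h2]
  exact h1

/-- **Solvability** of `L h = F + exp (2 h)` for negative smooth `F`. -/
theorem solve_exp {Lop : (X → ℝ) → X → ℝ}
    (h : ∀ x0 : X, ∃ e ∈ atlas E X, x0 ∈ e.source ∧ ∃ U : Set E, IsOpen U ∧ U ⊆ e.target ∧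
      e x0 ∈ U ∧ ∃ (a : E → (E →L[ℝ] E →L[ℝ] ℝ) →L[ℝ] ℝ) (b : E → (E →L[ℝ] ℝ) →L[ℝ] ℝ),
        ContDiffOn ℝ ∞ a U ∧ ContDiffOn ℝ ∞ b U ∧
        (∀ y ∈ U, ∀ ξ : E →L[ℝ] ℝ, ξ ≠ 0 → 0 < a y (ξ.smulRight ξ)) ∧
        ∀ f : X → ℝ, CkFn E ∞ f → ∀ y ∈ U, Lop f (e.symm y) =
          a y (fderiv ℝ (fderiv ℝ fun y => f (e.symm y)) y) +
            b y (fderiv ℝ (fun y => f (e.symm y)) y))
    {F : X → ℝ} (hF : CkFn E ∞ F) (hF0 : ∀ x, F x < 0) :
    ∃ h : X → ℝ, CkFn E ∞ h ∧ ∀ x, Lop h x = F x + Real.exp (2 * h x) := by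
  choose e he hx U hU hUt hxU a b ha hb hpos heq using h
  have hr : ∀ x : X, ∃ r : ℝ, 0 < r ∧ closedBall (e x x) (3 * r) ⊆ U x := by
    intro x
    obtain ⟨ε, hε, h⟩ := Metric.isOpen_iff.1 (hU x) _ (hxU x)
    refine ⟨ε / 4, by positivity, (closedBall_subset_ball ?_).trans h⟩
    linarith
  choose r hr hs using hr
  obtain ⟨𝒞, p, hp⟩ := Cov.exists_cov E X e he hx r hr fun x => (hs x).trans (hUt x)
  have D : OpData 𝒞 Lop (fun i => a (p i)) (fun i => b (p i)) (fun i => U (p i)) := by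
    refine ⟨fun i => hU _, fun i => ?_, fun i => ?_, fun i => ha _, fun i => hb _, fun i => hpos _,
      fun f hf i y hy => ?_⟩
    · rw [(hp i).1]; exact hUt _
    · rw [(hp i).2.1, (hp i).2.2]; exact hs _
    · rw [(hp i).1]; exact heq _ f hf y hy
  exact solve_data D hF hF0

end reg

theorem rsm_of {E : Type*} [NormedAddCommGroup E] [NormedSpace ℝ E]
    {M : Type*} [TopologicalSpace M] [ChartedSpace E M] [IsManifold 𝓘(ℝ, E) ∞ M] : RSm E M where
  trans e he e' he' x hx hx' := by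
    have h1 : ContMDiffAt 𝓘(ℝ, E) 𝓘(ℝ, E) ∞ e' x :=
      contMDiffAt_of_mem_maximalAtlas (IsManifold.subset_maximalAtlas he') hx'
    have h2 : ContMDiffAt 𝓘(ℝ, E) 𝓘(ℝ, E) ∞ e.symm (e x) :=
      (contMDiffOn_symm_of_mem_maximalAtlas (I := 𝓘(ℝ, E)) (n := ∞)
        (IsManifold.subset_maximalAtlas he)).contMDiffAt
          (e.open_target.mem_nhds (e.map_source hx))
    have h3 : ContMDiffAt 𝓘(ℝ, E) 𝓘(ℝ, E) ∞ (fun y => e' (e.symm y)) (e x) := by
      refine ContMDiffAt.comp (e x) (g := e') (f := e.symm) ?_ h2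
      rwa [e.left_inv hx]
    exact contMDiffAt_iff_contDiffAt.1 h3

end Vale.Agent.P207Z.Two
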